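import Vale.Agent.P181.MR.Defs

set_option autoImplicit false

/-!
# P181, MR, [LOW]: the lower bound from the blocks
-/

open MvPolynomial

namespace Vale.Agent.P181.MR.H233

open Vale.Agent.P181.T4 (HW)
open Vale.Agent.P181.H280 (plethMult)
open Vale.Agent.P181.H463 (gt)
open Vale.Agent.P181.SZ
open Vale.Agent.P181.TL (KK)
open Vale.Agent.P181.MR

theorem mem_PT {w : ℕ} {κ : Multiset ℕ} (hs : κ.sum = w) (h2 : ∀ x ∈ κ, 2 ≤ x) : κ ∈ PT w := by
  unfold PT
  refine Finset.mem_filter.2 ⟨Finset.mem_image.2 ⟨⟨κ, fun {i} hi => ?_, hs⟩, Finset.mem_univ _, rfl⟩,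
    h2⟩
  exact lt_of_lt_of_le (by norm_num) (h2 i hi)

/-- the number of a class -/
def ix {h B ν : ℕ} (z : Fin h × Fin B × Fin ν) : ℕ := B * z.1 + z.2.1

/-- the number of a frame -/
def fx {h ν : ℕ} (y : Fin h × Fin ν) : ℕ := ν * y.1 + y.2

lemma lt_mul {h B : ℕ} (x : Fin h) (y : Fin B) : B * (x : ℕ) + y < h * B := by
  have hx : (x : ℕ) + 1 ≤ h := x.2
  have hy : (y : ℕ) + 1 ≤ B := y.2
  nlinarith

lemma inj_mul {h B : ℕ} {x x' : Fin h} {y y' : Fin B} (e : B * (x : ℕ) + y = B * (x' : ℕ) + y') :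
    x = x' ∧ y = y' := by
  have hB : 0 < B := lt_of_le_of_lt (Nat.zero_le _) y.2
  have h1 : (x : ℕ) = x' := by
    have e1 : (B * (x : ℕ) + y) / B = x := by
      rw [Nat.mul_add_div hB, Nat.div_eq_of_lt y.2, add_zero]
    have e2 : (B * (x' : ℕ) + y') / B = x' := by
      rw [Nat.mul_add_div hB, Nat.div_eq_of_lt y'.2, add_zero]
    rw [← e1, ← e2, e]
  have h2 : (y : ℕ) = y' := by
    rw [h1] at e
    omega
  exact ⟨Fin.ext h1, Fin.ext h2⟩

lemma ix_lt {h B ν : ℕ} (z : Fin h × Fin B × Fin ν) : ix z < h * B := lt_mul _ _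

lemma fx_lt {h ν : ℕ} (y : Fin h × Fin ν) : fx y < h * ν := lt_mul _ _

lemma sum_mul (h B : ℕ) (f : ℕ → ℕ) :
    ∑ x : Fin h, ∑ y : Fin B, f (B * (x : ℕ) + y) = ∑ i ∈ Finset.range (h * B), f i := by
  rw [← Fin.sum_univ_eq_sum_range f (h * B), ← Fintype.sum_prod_type'
    (f := fun (x : Fin h) (y : Fin B) => f (B * (x : ℕ) + y))]
  refine Fintype.sum_equiv finProdFinEquiv _ _ fun p => ?_
  rw [finProdFinEquiv_apply_val, add_comm]

/-- contents -/
def cc (d e s F l : ℕ) {h B ν : ℕ} : Lt h B ν → ℕ :=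
  Sum.elim (fun z => s + ix z + if d ≤ ix z + e then 1 else 0)
    (fun y => fx y + if fx y + 1 = F then l else 0)

lemma sum_main (h B ν d e s : ℕ) (hd : d = h * B) (he : e < d) :
    ∑ z : Fin h × Fin B × Fin ν, (s + ix z + if d ≤ ix z + e then 1 else 0) =
      ν * (d * s + ∑ i ∈ Finset.range d, i + e) := by
  have h1 : ∑ z : Fin h × Fin B × Fin ν, (s + ix z + if d ≤ ix z + e then 1 else 0) =
      ∑ x : Fin h, ∑ y : Fin B, ν * (s + (B * (x : ℕ) + y) +
        if d ≤ (B * (x : ℕ) + y) + e then 1 else 0) := by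
    rw [Fintype.sum_prod_type]
    refine Finset.sum_congr rfl fun x _ => ?_
    rw [Fintype.sum_prod_type]
    refine Finset.sum_congr rfl fun y _ => ?_
    refine (Finset.sum_const (s + (B * (x : ℕ) + y) +
      if d ≤ (B * (x : ℕ) + y) + e then 1 else 0)).trans ?_
    rw [Finset.card_univ, Fintype.card_fin, smul_eq_mul]
  rw [h1, sum_mul h B (fun i => ν * (s + i + if d ≤ i + e then 1 else 0)), ← hd, ← Finset.mul_sum]
  congr 1
  rw [Finset.sum_add_distrib, Finset.sum_add_distrib, Finset.sum_const, Finset.card_range,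
    smul_eq_mul]
  congr 1
  rw [← Finset.card_filter]
  have : (Finset.range d).filter (fun i => d ≤ i + e) = Finset.Ico (d - e) d := by
    ext i
    simp only [Finset.mem_filter, Finset.mem_range, Finset.mem_Ico]
    omega
  rw [this, Nat.card_Ico]
  omega

lemma sum_frame (h ν F l : ℕ) (hF : F = h * ν) (hF0 : 0 < F) :
    ∑ y : Fin h × Fin ν, (fx y + if fx y + 1 = F then l else 0) =
      ∑ i ∈ Finset.range F, i + l := by
  have h1 : ∑ y : Fin h × Fin ν, (fx y + if fx y + 1 = F then l else 0) =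
      ∑ x : Fin h, ∑ y : Fin ν, ((ν * (x : ℕ) + y) + if (ν * (x : ℕ) + y) + 1 = F then l else 0) := by
    rw [Fintype.sum_prod_type]
    rfl
  rw [h1, sum_mul h ν (fun i => i + if i + 1 = F then l else 0), ← hF, Finset.sum_add_distrib]
  congr 1
  rw [Finset.sum_eq_single (F - 1)]
  · rw [if_pos (by omega)]
  · intro b hb hne
    rw [if_neg (by omega)]
  · intro hn
    exact absurd (Finset.mem_range.2 (by omega)) hn

lemma sum_cc (h B ν d e s F l : ℕ) (hd : d = h * B) (he : e < d) (hF : F = h * ν) (hF0 : 0 < F) :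
    ∑ j : Lt h B ν, cc d e s F l j =
      ν * (d * s + ∑ i ∈ Finset.range d, i + e) + (∑ i ∈ Finset.range F, i + l) := by
  rw [Fintype.sum_sum_type, ← sum_main h B ν d e s hd he, ← sum_frame h ν F l hF hF0]
  rfl

/-- the separation of the sizes -/
lemma perm_sep {h B ν M d e s F l : ℕ} (hd : d = h * B) (hF : F = h * ν)
    (hsz : s + d + M < B * (ν - 1)) (σ : Equiv.Perm (Lt h B ν))
    (hσ : ∀ j, cc d e s F l (σ j) + rr M h B ν (σ j) = cc d e s F l j + rr M h B ν j) :
    (∀ y, σ (Sum.inr y) = Sum.inr y) ∧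
      ∀ z : Fin h × Fin B × Fin ν, ∃ p, σ (Sum.inl z) = Sum.inl (z.1, z.2.1, p) := by
  have hmain : ∀ z : Fin h × Fin B × Fin ν,
      cc d e s F l (Sum.inl z : Lt h B ν) + rr M h B ν (Sum.inl z) < B * (ν - 1) := by
    intro z
    have := ix_lt z
    simp only [cc, rr, Sum.elim_inl]
    split_ifs <;> omega
  have hframe : ∀ y : Fin h × Fin ν,
      B * (ν - 1) ≤ cc d e s F l (Sum.inr y : Lt h B ν) + rr M h B ν (Sum.inr y) := by
    intro y
    simp only [cc, rr, Sum.elim_inr]
    omega
  constructor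
  · intro y
    rcases hy : σ (Sum.inr y) with z | y'
    · have h1 := hσ (Sum.inr y)
      rw [hy] at h1
      have h2 := hmain z
      have h3 := hframe y
      omega
    · have h1 := hσ (Sum.inr y)
      rw [hy] at h1
      simp only [cc, rr, Sum.elim_inr] at h1
      have h2 := fx_lt y
      have h3 := fx_lt y'
      have h4 : fx y' = fx y := by split_ifs at h1 <;> omega
      obtain ⟨e1, e2⟩ := inj_mul h4
      rw [Prod.ext e1 e2]
  · intro z
    rcases hz : σ (Sum.inl z) with z' | y
    · have h1 := hσ (Sum.inl z)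
      rw [hz] at h1
      simp only [cc, rr, Sum.elim_inl] at h1
      have h2 := ix_lt z
      have h3 := ix_lt z'
      have h4 : ix z' = ix z := by split_ifs at h1 <;> omega
      obtain ⟨e1, e2⟩ := inj_mul h4
      refine ⟨z'.2.2, ?_⟩
      rw [← e1, ← e2]
    · have h1 := hσ (Sum.inl z)
      rw [hz] at h1
      have h2 := hmain z
      have h3 := hframe y
      omega

open scoped Classical in
/-- the size of the group -/
lemma card_group {h B ν M d e s F l : ℕ} (hd : d = h * B) (hF : F = h * ν)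
    (hsz : s + d + M < B * (ν - 1)) :
    Fintype.card {σ : Equiv.Perm (Lt h B ν) // ∀ j, cc d e s F l (σ j) + rr M h B ν (σ j) =
      cc d e s F l j + rr M h B ν j} ≤ ν.factorial ^ d := by
  have hc : Fintype.card (Fin h × Fin B → Equiv.Perm (Fin ν)) = ν.factorial ^ d := by
    rw [Fintype.card_fun, Fintype.card_perm, Fintype.card_fin, Fintype.card_prod, Fintype.card_fin,
      Fintype.card_fin, hd]
  rw [← hc]
  have key : ∀ σ : {σ : Equiv.Perm (Lt h B ν) // ∀ j, cc d e s F l (σ j) + rr M h B ν (σ j) =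
      cc d e s F l j + rr M h B ν j}, ∀ z : Fin h × Fin B × Fin ν,
      ∃ p, σ.1 (Sum.inl z) = Sum.inl (z.1, z.2.1, p) := fun σ =>
    (perm_sep hd hF hsz σ.1 σ.2).2
  choose f hf using key
  have hinj : ∀ σ (x : Fin h) (y : Fin B), Function.Injective (fun p => f σ (x, y, p)) := by
    intro σ x y p p' hpp
    have h1 := hf σ (x, y, p)
    have h2 := hf σ (x, y, p')
    have h3 : σ.1 (Sum.inl (x, y, p)) = σ.1 (Sum.inl (x, y, p')) := by
      rw [h1, h2]
      simp only at hpp
      simp only [hpp]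
    have h4 := σ.1.injective h3
    simpa using h4
  refine Fintype.card_le_of_injective (fun σ xy =>
    Equiv.ofBijective (fun p => f σ (xy.1, xy.2, p))
      (Finite.injective_iff_bijective.1 (hinj σ xy.1 xy.2))) ?_
  intro σ τ hστ
  apply Subtype.ext
  apply Equiv.ext
  rintro (⟨x, y, p⟩ | y)
  · rw [hf σ, hf τ]
    have h1 := congrFun hστ (x, y)
    have h2 := congrArg (fun E : Equiv.Perm (Fin ν) => E p) h1
    simp only [Equiv.ofBijective_apply] at h2
    rw [h2]
  · rw [(perm_sep hd hF hsz σ.1 σ.2).1, (perm_sep hd hF hsz τ.1 τ.2).1]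

/-- the letters of the top half of the classes -/
def top (h B ν d : ℕ) : Finset (Lt h B ν) :=
  Finset.univ.filter fun j => Sum.elim (fun z => decide (d ≤ ix z + d / 2)) (fun _ => false) j = true

lemma card_top (h B ν d : ℕ) (hd : d = h * B) : (top h B ν d).card = ν * (d / 2) := by
  rw [top, Finset.card_filter, Fintype.sum_sum_type]
  simp only [Sum.elim_inl, Sum.elim_inr, decide_eq_true_eq, Bool.false_eq_true, if_false,
    Finset.sum_const_zero, add_zero]
  have h1 : ∑ z : Fin h × Fin B × Fin ν, (if d ≤ ix z + d / 2 then 1 else 0) =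
      ∑ x : Fin h, ∑ y : Fin B, ν * (if d ≤ (B * (x : ℕ) + y) + d / 2 then 1 else 0) := by
    rw [Fintype.sum_prod_type]
    refine Finset.sum_congr rfl fun x _ => ?_
    rw [Fintype.sum_prod_type]
    refine Finset.sum_congr rfl fun y _ => ?_
    refine (Finset.sum_const (if d ≤ (B * (x : ℕ) + y) + d / 2 then 1 else 0)).trans ?_
    rw [Finset.card_univ, Fintype.card_fin, smul_eq_mul]
  rw [h1, sum_mul h B (fun i => ν * (if d ≤ i + d / 2 then 1 else 0)), ← hd, ← Finset.mul_sum]
  congr 1
  rw [← Finset.card_filter]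
  have : (Finset.range d).filter (fun i => d ≤ i + d / 2) = Finset.Ico (d - d / 2) d := by
    ext i
    simp only [Finset.mem_filter, Finset.mem_range, Finset.mem_Ico]
    omega
  rw [this, Nat.card_Ico]
  omega

lemma mem_top {h B ν d : ℕ} (j : Lt h B ν) : j ∈ top h B ν d ↔
    ∃ z, j = Sum.inl z ∧ d ≤ ix z + d / 2 := by
  rw [top, Finset.mem_filter]
  rcases j with z | y
  · simp
  · simp

theorem low (hO : OrbM) (hD : DesM) (hB : BalM) (hLow : LowerS) (hTr : TransS) : LowM := by
  intro a b m R M h B ν d E F s e l lam eta hsum heta htl hR hRm hM hh hB1 hν hd hE hF hd2 he hl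
    hs hds hFs hsz hszF hb
  classical
  have hν1 : 1 ≤ ν := by rw [hν]; omega
  have hF0 : 0 < F := by rw [hF]; exact Nat.mul_pos hh hν1
  obtain ⟨P, x, hP, hPx, hPe⟩ := hD m R M h B ν hR hRm hν
  have hcs : ∑ j : Lt h B ν, cc d e s F l j = ∑ i, eta i := by
    rw [sum_cc h B ν d e s F l hd he hF hF0, hs]
  -- balance
  have hbal := hB m (ν * (d / 2)) (Lt h B ν) (cc d e s F l) (top h B ν d) eta heta
    (Nat.mul_pos hν1 (by omega)) (card_top h B ν d hd) hcs
    (by
      intro i hi j hj
      obtain ⟨z, rfl, hz⟩ := (mem_top j).1 hj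
      rcases i with z' | y
      · have h1 : ¬ d ≤ ix z' + d / 2 := fun hc => hi ((mem_top _).2 ⟨z', rfl, hc⟩)
        simp only [cc, Sum.elim_inl]
        split_ifs <;> omega
      · have h1 := fx_lt y
        simp only [cc, Sum.elim_inl, Sum.elim_inr]
        split_ifs <;> omega)
    (by
      intro j
      have h1 : cc d e s F l j ≤ 2 * s := by
        rcases j with z | y
        · have := ix_lt z
          simp only [cc, Sum.elim_inl]
          split_ifs <;> omega
        · have := fx_lt y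
          simp only [cc, Sum.elim_inr]
          split_ifs <;> omega
      rw [hs]
      calc ν * (d / 2) * cc d e s F l j ≤ ν * (d / 2) * (2 * s) := Nat.mul_le_mul_left _ h1
        _ = ν * ((d / 2 * 2) * s) := by ring
        _ ≤ ν * (d * s) := by
          refine Nat.mul_le_mul_left _ (Nat.mul_le_mul_right _ (Nat.div_mul_le_self d 2))
        _ ≤ ν * (d * s + ∑ i ∈ Finset.range d, i + e) := Nat.mul_le_mul_left _ (by omega)
        _ ≤ _ := Nat.le_add_right _ _)
  -- orbit
  have horb := hO m (Lt h B ν) (cc d e s F l) (rr M h B ν) eta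
    (fun i => if (i : ℕ) < R then h * B * ν * M else 0) P x (ν.factorial ^ d) hP hPx
    (by
      intro σ hσ
      obtain ⟨h1, h2⟩ := perm_sep hd hF hsz σ hσ
      refine ⟨?_, hPe σ h1 h2⟩
      rintro (z | y)
      · obtain ⟨p, hp⟩ := h2 z
        rw [hp]
        rfl
      · rw [h1])
    (by convert card_group hd hF hsz using 1)
  have hmu : (fun i : Fin m => eta i + if (i : ℕ) < R then h * B * ν * M else 0) = tl lam := by
    funext i
    rw [htl i, hE, hd]
  rw [hmu] at horb
  rw [hTr] at horb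
  set D : Lt h B ν → ℕ := fun j => cc d e s F l j + rr M h B ν j with hDdef
  have hD2 : ∀ j, 2 ≤ D j ∧ D j ≤ a := by
    rintro (z | y)
    · have := ix_lt z
      simp only [hDdef, cc, rr, Sum.elim_inl]
      constructor <;> split_ifs <;> omega
    · have := fx_lt y
      simp only [hDdef, cc, rr, Sum.elim_inr]
      constructor <;> split_ifs <;> omega
  have hfil : ((Finset.univ.val.map D).filter (0 < ·)) = Finset.univ.val.map D := by
    refine Multiset.filter_eq_self.2 fun x hx => ?_
    obtain ⟨y, _, rfl⟩ := Multiset.mem_map.1 hx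
    exact lt_of_lt_of_le (by norm_num) (hD2 y).1
  rw [hfil] at horb
  have hlast : nn m (tl lam) (Finset.univ.val.map D) ≤ plethMult b a (m + 1) lam := by
    refine le_trans ?_ (hLow a b m lam hsum)
    refine Finset.single_le_sum (f := fun κ => nn m (tl lam) κ) (fun _ _ => Nat.zero_le _)
      (Finset.mem_filter.2 ⟨mem_PT ?_ ?_, ?_, ?_⟩)
    · change ∑ j, D j = _
      rw [Finset.sum_congr rfl fun i _ => htl i, Finset.sum_add_distrib,
        Finset.sum_add_distrib, hcs]
      congr 1
      rw [Fintype.sum_sum_type]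
      simp only [rr, Sum.elim_inl, Sum.elim_inr]
      rw [Finset.sum_const, Finset.sum_const, Finset.card_univ, Finset.card_univ,
        Fintype.card_prod, Fintype.card_prod, Fintype.card_prod, Fintype.card_fin, Fintype.card_fin,
        Fintype.card_fin, smul_eq_mul, smul_eq_mul,
        Fin.sum_univ_eq_sum_range (fun i => if i < R then E else 0) m, ← Finset.sum_filter,
        Finset.sum_const, smul_eq_mul]
      have hf : (Finset.range m).filter (fun i => i < R) = Finset.range R := by
        ext i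
        simp only [Finset.mem_filter, Finset.mem_range]
        omega
      rw [hf, Finset.card_range, hE, hd, hν, Nat.add_sub_cancel]
      obtain ⟨R', rfl⟩ : ∃ R', R = R' + 1 := ⟨R - 1, by omega⟩
      rw [Nat.add_sub_cancel]
      ring
    · intro x hx
      obtain ⟨y, _, rfl⟩ := Multiset.mem_map.1 hx
      exact (hD2 y).1
    · intro x hx
      obtain ⟨y, _, rfl⟩ := Multiset.mem_map.1 hx
      exact (hD2 y).2
    · rw [Multiset.card_map]
      change 3 * Finset.card Finset.univ ≤ b
      rw [Finset.card_univ, Fintype.card_sum, Fintype.card_prod, Fintype.card_prod,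
        Fintype.card_prod, Fintype.card_fin, Fintype.card_fin, Fintype.card_fin]
      refine le_trans (le_of_eq ?_) hb
      rw [hF, hd]
      ring
  calc gt m (ν * (d / 2)) eta ≤ _ := hbal
    _ ≤ ((∑ i, eta i) + ν * (d / 2) - 1).choose (ν * (d / 2) - 1) *
        (ν.factorial ^ d * nn m (tl lam) (Finset.univ.val.map D)) := Nat.mul_le_mul_left _ horb
    _ ≤ ((∑ i, eta i) + ν * (d / 2) - 1).choose (ν * (d / 2) - 1) *
        (ν.factorial ^ d * plethMult b a (m + 1) lam) :=
        Nat.mul_le_mul_left _ (Nat.mul_le_mul_left _ hlast)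
    _ = _ := by ring

end Vale.Agent.P181.MR.H233
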